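import Vale.Agent.P078.Std.Mult

/-!
# P078: pairings of positive maps along partitions

A positive map from the MASA to the algebra gives sums over the pieces of a partition which decrease under
refinement; hence they converge, and the expectation inside may be replaced by a pinching uniformly.
-/

noncomputable section

namespace Vale.Agent.P078

open scoped InnerProductSpace Topology ComplexOrder
open Filter

universe u

variable {H : Type u} [NormedAddCommGroup H] [InnerProductSpace ℂ H] [CompleteSpace H]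

namespace Std

variable {S : Std H}

variable (S)

lemma nonempty_parti' : Nonempty S.Parti := by
  refine ⟨⟨1, fun _ => 1, fun i => ⟨one_mem _, IsStarProjection.one _⟩, fun i j h => absurd (Subsingleton.elim i j) h, ?_⟩⟩
  simp

/-- Eventually along refinement. -/
def fine : Filter S.Parti := ⨅ P₀ : S.Parti, 𝓟 {P | P.Refines P₀}

lemma mem_fine {s : Set S.Parti} : s ∈ S.fine ↔ ∃ P₀, ∀ P, P.Refines P₀ → P ∈ s := by
  have := S.nonempty_parti'
  rw [fine, mem_iInf_of_directed]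
  · simp [Set.subset_def]
  · intro P Q
    obtain ⟨R, h₁, h₂⟩ : ∃ R : S.Parti, R.Refines P ∧ R.Refines Q :=
      ⟨P.common Q, P.common_refines_left Q, P.common_refines_right Q⟩
    refine ⟨R, ?_, ?_⟩ <;> simp only [ge_iff_le, le_principal_iff, mem_principal, Set.subset_def,
      Set.mem_ofPred_eq] <;> intro X hX
    · exact hX.trans h₁
    · exact hX.trans h₂

instance fine_neBot : (S.fine).NeBot :=
  neBot_iff.2 fun h => by
    obtain ⟨P₀, hP⟩ := S.mem_fine.1 (show (∅ : Set S.Parti) ∈ S.fine by rw [h]; exact mem_bot)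
    exact hP P₀ (Parti.Refines.refl P₀)

lemma eventually_fine {p : S.Parti → Prop} (P₀ : S.Parti) (h : ∀ P, P.Refines P₀ → p P) :
    ∀ᶠ P in S.fine, p P := S.mem_fine.2 ⟨P₀, h⟩

lemma ptendsto_iff {α : Type*} [PseudoMetricSpace α] {f : S.Parti → α} {l : α} :
    S.PTendsto f l ↔ Tendsto f S.fine (𝓝 l) := by
  simp only [Metric.tendsto_nhds, Filter.Eventually, S.mem_fine, PTendsto, Set.mem_ofPred_eq]

/-- A nonnegative function decreasing along refinement converges to its infimum. -/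
lemma exists_tendsto_of_antitone {f : S.Parti → ℝ} (h0 : ∀ P, 0 ≤ f P)
    (hmono : ∀ Q P : S.Parti, Q.Refines P → f Q ≤ f P) :
    ∃ l, Tendsto f S.fine (𝓝 l) ∧ ∀ P, l ≤ f P := by
  have := S.nonempty_parti'
  have hb : BddBelow (Set.range f) := ⟨0, by rintro _ ⟨P, rfl⟩; exact h0 P⟩
  refine ⟨⨅ P, f P, Metric.tendsto_nhds.2 fun ε hε => ?_, fun P => ciInf_le hb P⟩
  obtain ⟨P₀, hP₀⟩ := exists_lt_of_ciInf_lt (show ⨅ P, f P < (⨅ P, f P) + ε by linarith)
  refine S.eventually_fine P₀ fun P hP => ?_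
  rw [Real.dist_eq, abs_lt]
  constructor <;> linarith [ciInf_le hb P, hmono P P₀ hP]

/-! ### Elementary facts about the trace -/

lemma inner_orbit (x y : Op H) : ⟪x S.Ω, y S.Ω⟫_ℂ = S.tau (star x * y) := by
  simp [tau, ContinuousLinearMap.star_eq_adjoint, ContinuousLinearMap.adjoint_inner_right]

lemma n2_add_sq (x y : Op H) :
    S.n2 (x + y) ^ 2 = S.n2 x ^ 2 + 2 * (S.tau (star x * y)).re + S.n2 y ^ 2 := by
  rw [← S.inner_orbit]
  exact (norm_add_sq (𝕜 := ℂ) (x S.Ω) (y S.Ω))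

lemma n2_sub_sq (x y : Op H) :
    S.n2 (x - y) ^ 2 = S.n2 x ^ 2 - 2 * (S.tau (star x * y)).re + S.n2 y ^ 2 := by
  rw [← S.inner_orbit]
  exact (norm_sub_sq (𝕜 := ℂ) (x S.Ω) (y S.Ω))

lemma tau_mul_nonneg {x y : Op H} (hx : x ∈ S.M) (hy : y ∈ S.M) (hx0 : 0 ≤ x) (hy0 : 0 ≤ y) :
    0 ≤ S.tau (x * y) := by
  set r := CFC.sqrt y with hr
  have hrM : r ∈ S.M := S.sqrt_mem_M hy
  have hrs : star r = r := (CFC.sqrt_nonneg y).isSelfAdjoint
  have hy' : r * r = y := CFC.sqrt_mul_sqrt_self y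
  have h : S.tau (x * y) = ⟪r S.Ω, x (r S.Ω)⟫_ℂ := by
    rw [show ⟪r S.Ω, x (r S.Ω)⟫_ℂ = S.tau (star r * (x * r)) from S.inner_orbit r (x * r), hrs,
      S.tau_comm hrM (mul_mem hx hrM), mul_assoc, hy']
  rw [h]
  exact ((ContinuousLinearMap.nonneg_iff_isPositive x).1 hx0).inner_nonneg_right _

lemma tau_mul_re_nonneg {x y : Op H} (hx : x ∈ S.M) (hy : y ∈ S.M) (hx0 : 0 ≤ x) (hy0 : 0 ≤ y) :
    0 ≤ (S.tau (x * y)).re := (Complex.le_def.1 (S.tau_mul_nonneg hx hy hx0 hy0)).1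

lemma tau_mul_im {x y : Op H} (hx : x ∈ S.M) (hy : y ∈ S.M) (hx0 : 0 ≤ x) (hy0 : 0 ≤ y) :
    (S.tau (x * y)).im = 0 := ((Complex.le_def.1 (S.tau_mul_nonneg hx hy hx0 hy0)).2).symm

/-- Squares of norms of positive elements are superadditive. -/
lemma sum_n2_sq_le {ι : Type*} (s : Finset ι) {f : ι → Op H} (hf : ∀ i ∈ s, f i ∈ S.M) (hf0 : ∀ i ∈ s, 0 ≤ f i) :
    ∑ i ∈ s, S.n2 (f i) ^ 2 ≤ S.n2 (∑ i ∈ s, f i) ^ 2 := by
  classical
  induction s using Finset.induction with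
  | empty => simp [n2]
  | insert k s hk ih =>
    rw [Finset.sum_insert hk, Finset.sum_insert hk, S.n2_add_sq]
    have h1 := hf0 k (Finset.mem_insert_self _ _)
    rw [h1.isSelfAdjoint.star_eq]
    have := S.tau_mul_re_nonneg (hf k (Finset.mem_insert_self _ _))
      (sum_mem fun i hi => hf i (Finset.mem_insert_of_mem hi)) h1
      (Finset.sum_nonneg fun i hi => hf0 i (Finset.mem_insert_of_mem hi))
    have := ih (fun i hi => hf i (Finset.mem_insert_of_mem hi)) fun i hi => hf0 i (Finset.mem_insert_of_mem hi)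
    linarith

/-! ### Pieces and pinchings -/

variable {S}

lemma Parti.mem_A (P : S.Parti) (i : Fin P.n) : P.p i ∈ S.A := (P.isPart.1 i).1

lemma Parti.mem_M (P : S.Parti) (i : Fin P.n) : P.p i ∈ S.M := S.A_le (P.mem_A i)

lemma Parti.proj (P : S.Parti) (i : Fin P.n) : IsStarProjection (P.p i) := (P.isPart.1 i).2

lemma Parti.star_p (P : S.Parti) (i : Fin P.n) : star (P.p i) = P.p i := (P.proj i).isSelfAdjoint

lemma Parti.mul_self (P : S.Parti) (i : Fin P.n) : P.p i * P.p i = P.p i := (P.proj i).isIdempotentElem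

lemma Parti.nonneg (P : S.Parti) (i : Fin P.n) : 0 ≤ P.p i := (P.proj i).nonneg

lemma Parti.sum_p (P : S.Parti) : ∑ i, P.p i = 1 := P.isPart.2.2

variable (S)

lemma pinch_sub (P : S.Parti) (x y : Op H) : pinch P.p (x - y) = pinch P.p x - pinch P.p y := by
  simp [pinch, _root_.mul_sub, sub_mul, Finset.sum_sub_distrib]

lemma pinch_zero (P : S.Parti) : pinch P.p (0 : Op H) = 0 := by simp [pinch]

lemma pinch_of_mem (P : S.Parti) {a : Op H} (ha : a ∈ S.A) : pinch P.p a = a := by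
  have h : ∀ i, P.p i * a * P.p i = P.p i * a := fun i => by
    rw [mul_assoc, S.A_comm a ha _ (P.mem_A i), ← mul_assoc, P.mul_self]
  simp only [pinch, h, ← Finset.sum_mul, P.sum_p, one_mul]

lemma tau_mul_pinch_symm {x y : Op H} (P : S.Parti) (hx : x ∈ S.M) (hy : y ∈ S.M) :
    S.tau (x * pinch P.p y) = S.tau (pinch P.p x * y) := by
  simp only [pinch, Finset.mul_sum, Finset.sum_mul, S.tau_sum]
  refine Finset.sum_congr rfl fun i _ => ?_
  rw [show x * (P.p i * y * P.p i) = x * (P.p i * y) * P.p i by simp only [mul_assoc],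
    S.tau_comm (mul_mem hx (mul_mem (P.mem_M i) hy)) (P.mem_M i)]
  simp only [mul_assoc]

lemma n2_pinch_eq {x : Op H} (P : S.Parti) (hx : x ∈ S.M) :
    S.n2 (pinch P.p x) ^ 2 = (S.tau (pinch P.p (star x) * x)).re := by
  rw [S.n2_sq, star_pinch P.isPart, S.tau_mul_pinch_symm P (S.pinch_mem (star_mem hx)) hx,
    S.pinch_pinch (Parti.Refines.refl P)]

lemma n2_pinch_sub_exp {x : Op H} (P : S.Parti) (hx : x ∈ S.M) :
    S.n2 (pinch P.p x - S.exp x) ^ 2 = S.n2 (pinch P.p x) ^ 2 - S.n2 (S.exp x) ^ 2 := by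
  have hE := S.exp_mem x
  have hEM := S.A_le hE
  rw [S.n2_sub_sq]
  have h : (S.tau (star (pinch P.p x) * S.exp x)).re = S.n2 (S.exp x) ^ 2 := by
    have h1 : S.tau (star (S.exp x) * pinch P.p x) = S.tau (star (S.exp x) * S.exp x) := by
      rw [S.tau_mul_pinch_symm P (star_mem hEM) hx, S.pinch_of_mem P (star_mem hE),
        S.tau_mul_exp (star_mem hE) hx]
    have h2 : star (star (S.exp x) * pinch P.p x) = star (pinch P.p x) * S.exp x := by simp
    rw [← h2, S.tau_star, Complex.conj_re, h1, ← S.n2_sq]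
  linarith

lemma n2_exp_le_pinch {x : Op H} (P : S.Parti) (hx : x ∈ S.M) : S.n2 (S.exp x) ≤ S.n2 (pinch P.p x) := by
  nlinarith [S.n2_pinch_sub_exp P hx, sq_nonneg (S.n2 (pinch P.p x - S.exp x)), S.n2_nonneg (S.exp x),
    S.n2_nonneg (pinch P.p x)]

/-! ### Positive maps -/

/-- A positive additive map from the MASA into the algebra. -/
structure PosMap (Φ : Op H → Op H) : Prop where
  mem : ∀ a ∈ S.A, Φ a ∈ S.M
  zero : Φ 0 = 0
  add : ∀ a ∈ S.A, ∀ b ∈ S.A, Φ (a + b) = Φ a + Φ b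
  pos : ∀ a ∈ S.A, 0 ≤ a → 0 ≤ Φ a

namespace PosMap

variable {S} {Φ : Op H → Op H} (hΦ : S.PosMap Φ)
include hΦ

lemma sum {ι : Type*} (s : Finset ι) {f : ι → Op H} (hf : ∀ i ∈ s, f i ∈ S.A) :
    Φ (∑ i ∈ s, f i) = ∑ i ∈ s, Φ (f i) := by
  classical
  induction s using Finset.induction with
  | empty => simp [hΦ.zero]
  | insert k s hk ih =>
    rw [Finset.sum_insert hk, Finset.sum_insert hk, hΦ.add _ (hf k (Finset.mem_insert_self _ _)) _
      (sum_mem fun i hi => hf i (Finset.mem_insert_of_mem hi)), ih fun i hi => hf i (Finset.mem_insert_of_mem hi)]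

lemma comp_exp : S.PosMap fun a => S.exp (Φ a) where
  mem a _ := S.A_le (S.exp_mem _)
  zero := by rw [hΦ.zero]; exact S.exp_of_mem (zero_mem _)
  add a ha b hb := by rw [hΦ.add a ha b hb, S.exp_add (hΦ.mem a ha) (hΦ.mem b hb)]
  pos a ha h := S.exp_nonneg (hΦ.mem a ha) (hΦ.pos a ha h)

lemma comp_pinch (R : S.Parti) : S.PosMap fun a => pinch R.p (Φ a) where
  mem a ha := S.pinch_mem (hΦ.mem a ha)
  zero := by rw [hΦ.zero]; simp [pinch]
  add a ha b hb := by rw [hΦ.add a ha b hb, pinch_add]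
  pos a ha h := pinch_nonneg R.isPart (hΦ.pos a ha h)

lemma comp_conj {X : Op H} (hX : X ∈ S.M) : S.PosMap fun a => star X * Φ a * X where
  mem a ha := mul_mem (mul_mem (star_mem hX) (hΦ.mem a ha)) hX
  zero := by simp [hΦ.zero]
  add a ha b hb := by rw [hΦ.add a ha b hb, _root_.mul_add, add_mul]
  pos a ha h := star_left_conjugate_nonneg (hΦ.pos a ha h) X

lemma sum_sq_le_of_refines {Q P : S.Parti} (h : Q.Refines P) :
    ∑ i, S.n2 (Φ (Q.p i)) ^ 2 ≤ ∑ j, S.n2 (Φ (P.p j)) ^ 2 := by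
  classical
  obtain ⟨f, hf⟩ := h
  rw [← Finset.sum_fiberwise Finset.univ f]
  refine Finset.sum_le_sum fun j _ => ?_
  rw [hf j, ← Finset.sum_filter, hΦ.sum _ fun i _ => Q.mem_A i]
  exact S.sum_n2_sq_le _ (fun i _ => hΦ.mem _ (Q.mem_A i)) fun i _ => hΦ.pos _ (Q.mem_A i) (Q.nonneg i)

lemma sum_pair_le_of_refines {Q P : S.Parti} (h : Q.Refines P) :
    ∑ i, (S.tau (Q.p i * Φ (Q.p i))).re ≤ ∑ j, (S.tau (P.p j * Φ (P.p j))).re := by
  classical
  obtain ⟨f, hf⟩ := h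
  rw [← Finset.sum_fiberwise Finset.univ f]
  refine Finset.sum_le_sum fun j _ => ?_
  rw [hf j, ← Finset.sum_filter, hΦ.sum _ fun i _ => Q.mem_A i, Finset.sum_mul, S.tau_sum, Complex.re_sum]
  refine Finset.sum_le_sum fun i hi => ?_
  rw [Finset.mul_sum, S.tau_sum, Complex.re_sum]
  exact Finset.single_le_sum (f := fun k => (S.tau (Q.p i * Φ (Q.p k))).re) (fun k _ =>
    S.tau_mul_re_nonneg (Q.mem_M i) (hΦ.mem _ (Q.mem_A k)) (Q.nonneg i) (hΦ.pos _ (Q.mem_A k) (Q.nonneg k))) hi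

lemma pair_nonneg (P : S.Parti) : 0 ≤ ∑ j, (S.tau (P.p j * Φ (P.p j))).re :=
  Finset.sum_nonneg fun j _ => S.tau_mul_re_nonneg (P.mem_M j) (hΦ.mem _ (P.mem_A j)) (P.nonneg j)
    (hΦ.pos _ (P.mem_A j) (P.nonneg j))

/-- Inside a positive map the expectation is replaced by a pinching, uniformly in fine partitions. -/
lemma uniform_pinch :
    Tendsto (fun z : S.Parti × S.Parti => ∑ i, S.n2 (pinch z.2.p (Φ (z.1.p i)) - S.exp (Φ (z.1.p i))) ^ 2)
      (S.fine ×ˢ S.fine) (𝓝 0) := by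
  set G : S.Parti → S.Parti → ℝ := fun P R => ∑ i, S.n2 (pinch R.p (Φ (P.p i))) ^ 2 with hG
  have hN : Nonempty (S.Parti × S.Parti) := by have := S.nonempty_parti'; infer_instance
  have hb : BddBelow (Set.range fun z : S.Parti × S.Parti => G z.1 z.2) :=
    ⟨0, by rintro _ ⟨z, rfl⟩; exact Finset.sum_nonneg fun i _ => sq_nonneg _⟩
  set m := ⨅ z : S.Parti × S.Parti, G z.1 z.2
  rw [Metric.tendsto_nhds]
  intro ε hε
  obtain ⟨⟨P₀, R₀⟩, hlt⟩ := exists_lt_of_ciInf_lt (show m < m + ε by linarith)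
  have hev := (S.eventually_fine P₀ fun P hP => hP).prod_mk (S.eventually_fine R₀ fun R hR => hR)
  filter_upwards [hev] with z hz
  have hm : ∀ i, Φ (z.1.p i) ∈ S.M := fun i => hΦ.mem _ (z.1.mem_A i)
  have hlim : Tendsto (fun R => G z.1 R) S.fine (𝓝 (∑ i, S.n2 (S.exp (Φ (z.1.p i))) ^ 2)) := by
    refine tendsto_finsetSum _ fun i _ => Tendsto.pow ?_ 2
    have h := (S.ptendsto_iff.1 (S.pinch_tendsto (hm i)))
    refine tendsto_iff_norm_sub_tendsto_zero.2 (squeeze_zero (fun _ => norm_nonneg _) (fun R => ?_) h)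
    exact abs_norm_sub_norm_le _ _
  have hge : m ≤ ∑ i, S.n2 (S.exp (Φ (z.1.p i))) ^ 2 :=
    ge_of_tendsto' hlim fun R => ciInf_le hb (z.1, R)
  have h1 : G z.1 z.2 ≤ G P₀ z.2 := (hΦ.comp_pinch z.2).sum_sq_le_of_refines hz.1
  have h2 : G P₀ z.2 ≤ G P₀ R₀ := Finset.sum_le_sum fun i _ =>
    pow_le_pow_left₀ (S.n2_nonneg _) (S.n2_pinch_le_of_refines hz.2 (hΦ.mem _ (P₀.mem_A i))) 2
  simp only [S.n2_pinch_sub_exp z.2 (hm _), Finset.sum_sub_distrib]
  rw [Real.dist_eq, sub_zero, abs_lt]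
  have h3 : ∑ i, S.n2 (S.exp (Φ (z.1.p i))) ^ 2 ≤ G z.1 z.2 := Finset.sum_le_sum fun i _ =>
    pow_le_pow_left₀ (S.n2_nonneg _) (S.n2_exp_le_pinch z.2 (hm i)) 2
  simp only [hG] at h1 h2 h3 hlt
  constructor <;> linarith

end PosMap

end Std

end Vale.Agent.P078
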