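import Vale.Agent.P078.Trace.Mono

/-!
# P078: the adjoint symmetry of finite sums `a ↦ E(Z* a Z)`

The sums `∑ n2(E(∑ Z* p Z))^2` over fine partitions do not change when every `Z` is replaced by its adjoint.
-/

noncomputable section

namespace Vale.Agent.P078

open scoped InnerProductSpace Topology ComplexOrder
open Filter

universe u

variable {H : Type u} [NormedAddCommGroup H] [InnerProductSpace ℂ H] [CompleteSpace H]

namespace Std

variable (S : Std H)

/-- The Cauchy-Schwarz inequality of the expectation. -/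
theorem n2_exp_mul_le {x y : Op H} (hx : x ∈ S.M) (hy : y ∈ S.M) :
    S.n2 (S.exp (star x * y)) ^ 2 ≤ (S.tau (S.exp (star x * x) * S.exp (star y * y))).re := by
  set c := S.exp (star x * y) with hcdef
  set e := S.exp (star x * x) with hedef
  set f := S.exp (star y * y) with hfdef
  have hxx : star x * x ∈ S.M := mul_mem (star_mem hx) hx
  have hxy : star x * y ∈ S.M := mul_mem (star_mem hx) hy
  have hyy : star y * y ∈ S.M := mul_mem (star_mem hy) hy
  have hc : c ∈ S.A := S.exp_mem _
  have he : e ∈ S.A := S.exp_mem _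
  have hf : f ∈ S.A := S.exp_mem _
  have he0 : 0 ≤ e := S.exp_nonneg hxx (star_mul_self_nonneg x)
  have hf0 : 0 ≤ f := S.exp_nonneg hyy (star_mul_self_nonneg y)
  refine le_of_forall_pos_le_add fun η hη => ?_
  set δ : ℝ := η / (1 + (S.tau f).re) with hδdef
  have hfr : 0 ≤ (S.tau f).re := by
    have := S.tau_mul_re_nonneg (one_mem S.M) (S.A_le hf) zero_le_one hf0
    rwa [one_mul] at this
  have hδ : 0 < δ := by positivity
  set d := e + algebraMap ℝ (Op H) δ with hddef
  have hdA : d ∈ S.A := by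
    refine add_mem he ?_
    rw [IsScalarTower.algebraMap_apply ℝ ℂ (Op H)]
    exact StarSubalgebra.algebraMap_mem S.A _
  have hd0 : algebraMap ℝ (Op H) δ ≤ d := le_add_of_nonneg_left he0
  have hdu : IsUnit d := by
    refine CStarAlgebra.isUnit_of_le (algebraMap ℝ (Op H) δ) hd0 ?_
    rw [IsStrictlyPositive.iff_of_unital]
    refine ⟨algebraMap_nonneg _ hδ.le, ?_⟩
    exact (RingHom.isUnit_map _ (IsUnit.mk0 _ hδ.ne'))
  set i := Ring.inverse d
  have hiA : i ∈ S.A := S.inverse_mem_A hdA
  have hdi : d * i = 1 := Ring.mul_inverse_cancel _ hdu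
  have hid : i * d = 1 := Ring.inverse_mul_cancel _ hdu
  have hds : star d = d := (le_trans (algebraMap_nonneg _ hδ.le) hd0).isSelfAdjoint
  have his : star i = i := by
    calc star i = star i * (d * i) := by rw [hdi, _root_.mul_one]
      _ = star (d * i) * i := by rw [star_mul, hds]; simp only [mul_assoc]
      _ = i := by rw [hdi, star_one, one_mul]
  set a := i * c with hadef
  have haA : a ∈ S.A := mul_mem hiA hc
  have haM : a ∈ S.M := S.A_le haA
  have hes : star e = e := he0.isSelfAdjoint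
  have hfs : star f = f := hf0.isSelfAdjoint
  set z := x * a - y
  have hz : z ∈ S.M := sub_mem (mul_mem hx haM) hy
  have hexpand : S.exp (star z * z) = star a * e * a - star a * c - star c * a + f := by
    have e1 : star z * z = star a * (star x * x) * a - star a * (star x * y) * 1
        - 1 * star (star x * y) * a + star y * y := by
      simp only [z, star_sub, star_mul, star_star, one_mul, _root_.mul_one, sub_mul, _root_.mul_sub, mul_assoc]
      abel
    have m1 : star a * (star x * x) * a ∈ S.M := mul_mem (mul_mem (star_mem haM) hxx) haM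
    have m2 : star a * (star x * y) * 1 ∈ S.M := mul_mem (mul_mem (star_mem haM) hxy) (one_mem _)
    have m3 : 1 * star (star x * y) * a ∈ S.M := mul_mem (mul_mem (one_mem _) (star_mem hxy)) haM
    rw [e1, S.exp_add (sub_mem (sub_mem m1 m2) m3) hyy, S.exp_sub (sub_mem m1 m2) m3, S.exp_sub m1 m2,
      S.exp_bimod (star_mem haA) haA hxx, S.exp_bimod (star_mem haA) (one_mem _) hxy,
      S.exp_bimod (one_mem _) haA (star_mem hxy), S.exp_star hxy, _root_.mul_one, one_mul]
  have hz0 : 0 ≤ S.exp (star z * z) := S.exp_nonneg (mul_mem (star_mem hz) hz) (star_mul_self_nonneg z)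
  have h1 := S.tau_mul_re_nonneg (S.A_le (S.exp_mem _)) (S.A_le hdA) hz0 (le_trans (algebraMap_nonneg _ hδ.le) hd0)
  -- in the commutative algebra `A`
  have hcom : ∀ u ∈ S.A, ∀ v ∈ S.A, u * v = v * u := S.A_comm
  have had : a * d = c := by
    rw [hcom _ haA _ hdA, hadef, ← mul_assoc, hdi, one_mul]
  have hsd : star a * d = star c := by
    conv_lhs => rw [← hds]
    rw [← star_mul, hcom _ hdA _ haA, had]
  have hcd : c * d = d * c := hcom _ hc _ hdA
  have heq : e = d - δ • (1 : Op H) := by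
    rw [hddef, Algebra.algebraMap_eq_smul_one, add_sub_cancel_right]
  have halg : S.exp (star z * z) * d = f * d - star c * c - δ • (star a * a * d) := by
    rw [hexpand, add_mul, sub_mul, sub_mul, mul_assoc (star a * e) a d, mul_assoc (star a) a d,
      mul_assoc (star a) c d, mul_assoc (star c) a d, had, hcd, ← mul_assoc (star a) d c, hsd, heq,
      _root_.mul_sub, hsd, sub_mul, mul_smul_comm, _root_.mul_one, smul_mul_assoc]
    abel
  have haa : 0 ≤ (S.tau (star a * a * d)).re :=
    S.tau_mul_re_nonneg (mul_mem (star_mem haM) haM) (S.A_le hdA) (star_mul_self_nonneg a)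
      (le_trans (algebraMap_nonneg _ hδ.le) hd0)
  have htδ : ∀ u : Op H, (S.tau (δ • u)).re = δ * (S.tau u).re := fun u => by
    rw [show δ • u = (δ : ℂ) • u from (Complex.coe_smul δ u).symm, S.tau_smul]
    simp
  have hfd : (S.tau (f * d)).re = (S.tau (f * e)).re + δ * (S.tau f).re := by
    rw [hddef, _root_.mul_add, Algebra.algebraMap_eq_smul_one, mul_smul_comm, _root_.mul_one, S.tau_add,
      Complex.add_re, htδ]
  have hsub : ∀ u v : Op H, (S.tau (u - v)).re = (S.tau u).re - (S.tau v).re := fun u v => by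
    have := S.tau_add (u - v) v
    rw [sub_add_cancel] at this
    rw [this, Complex.add_re]; ring
  rw [halg, hsub, hsub, htδ, ← S.n2_sq, hfd, S.tau_comm (S.A_le hf) (S.A_le he)] at h1
  have hb : δ * (S.tau f).re ≤ η := by
    rw [hδdef, div_mul_eq_mul_div, div_le_iff₀ (by linarith)]
    nlinarith
  nlinarith [mul_nonneg hδ.le haa]

/-! ### The symmetry -/

variable {ι : Type*} [Fintype ι]

/-- The map `a ↦ ∑ Z* a Z`. -/
def sandwich (Z : ι → Op H) (a : Op H) : Op H := ∑ k, star (Z k) * a * Z k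

/-- The square sum of the map `a ↦ E(∑ Z* a Z)` over a partition. -/
def sqSum (Φ : Op H → Op H) (P : S.Parti) : ℝ := ∑ i, S.n2 (S.exp (Φ (P.p i))) ^ 2

lemma posMap_sandwich {Z : ι → Op H} (hZ : ∀ k, Z k ∈ S.M) : S.PosMap (sandwich Z) where
  mem a ha := sum_mem fun k _ => mul_mem (mul_mem (star_mem (hZ k)) (S.A_le ha)) (hZ k)
  zero := by simp [sandwich]
  add a _ b _ := by simp [sandwich, _root_.mul_add, add_mul, Finset.sum_add_distrib]
  pos a _ h := Finset.sum_nonneg fun k _ => star_left_conjugate_nonneg h (Z k)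

lemma PosMap.exists_sqSum_tendsto {S : Std H} {Φ : Op H → Op H} (hΦ : S.PosMap Φ) :
    ∃ l, Tendsto (S.sqSum Φ) S.fine (𝓝 l) ∧ ∀ P, l ≤ S.sqSum Φ P :=
  S.exists_tendsto_of_antitone (fun P => Finset.sum_nonneg fun i _ => sq_nonneg _)
    fun _ _ h => hΦ.comp_exp.sum_sq_le_of_refines h

private lemma sum_rot {α β γ : Type*} [Fintype α] [Fintype β] [Fintype γ] (F : α → β → γ → ℝ) :
    ∑ a, ∑ b, ∑ c, F a b c = ∑ c, ∑ a, ∑ b, F a b c := by
  rw [Finset.sum_comm_cycle]

/-- The four factor sum, read in the transposed way. -/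
lemma sum_n2_pinch_sandwich {Z : ι → Op H} (hZ : ∀ k, Z k ∈ S.M) (P R : S.Parti) :
    ∑ i, S.n2 (pinch R.p (sandwich Z (P.p i))) ^ 2 =
      ∑ j, ∑ k, ∑ l, S.n2 (pinch P.p (Z k * R.p j * star (Z l))) ^ 2 := by
  have hL : ∀ i, S.n2 (pinch R.p (sandwich Z (P.p i))) ^ 2 = ∑ j, ∑ k, ∑ l,
      (S.tau (R.p j * star (Z k) * P.p i * Z k * R.p j * star (Z l) * P.p i * Z l)).re := fun i => by
    have hm := (S.posMap_sandwich hZ).mem _ (P.mem_A i)
    have hs : star (sandwich Z (P.p i)) = sandwich Z (P.p i) :=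
      ((S.posMap_sandwich hZ).pos _ (P.mem_A i) (P.nonneg i)).isSelfAdjoint
    rw [S.n2_pinch_eq R hm, hs]
    simp only [pinch, sandwich, Finset.mul_sum, Finset.sum_mul, S.tau_sum, Complex.re_sum, ← mul_assoc]
    exact (sum_rot fun l j k =>
      (S.tau (R.p j * star (Z k) * P.p i * Z k * R.p j * star (Z l) * P.p i * Z l)).re).trans
      (sum_rot fun k l j => (S.tau (R.p j * star (Z k) * P.p i * Z k * R.p j * star (Z l) * P.p i * Z l)).re)
  have hR : ∀ j k l, S.n2 (pinch P.p (Z k * R.p j * star (Z l))) ^ 2 = ∑ i,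
      (S.tau (R.p j * star (Z k) * P.p i * Z k * R.p j * star (Z l) * P.p i * Z l)).re := fun j k l => by
    rw [S.n2_pinch_eq P (mul_mem (mul_mem (hZ k) (R.mem_M j)) (star_mem (hZ l)))]
    simp only [pinch, Finset.sum_mul, S.tau_sum, Complex.re_sum, star_mul, star_star, R.star_p]
    refine Finset.sum_congr rfl fun i _ => ?_
    congr 1
    rw [show P.p i * (Z l * (R.p j * star (Z k))) * P.p i * (Z k * R.p j * star (Z l)) =
        (P.p i * Z l) * (R.p j * star (Z k) * P.p i * Z k * R.p j * star (Z l)) by simp only [mul_assoc],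
      S.tau_comm (mul_mem (P.mem_M i) (hZ l)) (mul_mem (mul_mem (mul_mem (mul_mem (mul_mem (R.mem_M j)
        (star_mem (hZ k))) (P.mem_M i)) (hZ k)) (R.mem_M j)) (star_mem (hZ l)))]
    simp only [mul_assoc]
  simp only [hL, hR]
  rw [Finset.sum_comm]
  refine Finset.sum_congr rfl fun j _ => ?_
  rw [Finset.sum_comm]
  exact Finset.sum_congr rfl fun k _ => Finset.sum_comm

/-- Square sums of `a ↦ E(∑ Z* a Z)` and of the transposed map have the same limit. -/
theorem sandwich_symm {Z : ι → Op H} (hZ : ∀ k, Z k ∈ S.M) {l l' : ℝ}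
    (h : Tendsto (S.sqSum (sandwich Z)) S.fine (𝓝 l))
    (h' : Tendsto (S.sqSum (sandwich fun k => star (Z k))) S.fine (𝓝 l')) : l = l' := by
  suffices key : ∀ {Y : ι → Op H}, (∀ k, Y k ∈ S.M) → ∀ {a b : ℝ},
      Tendsto (S.sqSum (sandwich Y)) S.fine (𝓝 a) →
      Tendsto (S.sqSum (sandwich fun k => star (Y k))) S.fine (𝓝 b) → a ≤ b by
    refine le_antisymm (key hZ h h') (key (fun k => star_mem (hZ k)) h' ?_)
    simpa only [star_star] using h
  intro Y hY a b ha hb
  obtain ⟨a', ha', hale⟩ := (S.posMap_sandwich hY).exists_sqSum_tendsto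
  have haa : a = a' := tendsto_nhds_unique ha ha'
  refine ge_of_tendsto' hb fun R => ?_
  -- for every `P` the four factor sum dominates the limit
  have hlim : Tendsto (fun P => ∑ i, S.n2 (pinch R.p (sandwich Y (P.p i))) ^ 2) S.fine
      (𝓝 (∑ j, ∑ k, ∑ l, S.n2 (S.exp (Y k * R.p j * star (Y l))) ^ 2)) := by
    simp only [S.sum_n2_pinch_sandwich hY]
    refine tendsto_finsetSum _ fun j _ => tendsto_finsetSum _ fun k _ => tendsto_finsetSum _ fun l _ =>
      Tendsto.pow ?_ 2
    have h := S.ptendsto_iff.1 (S.pinch_tendsto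
      (mul_mem (mul_mem (hY k) (R.mem_M j)) (star_mem (hY l))))
    exact tendsto_iff_norm_sub_tendsto_zero.2
      (squeeze_zero (fun _ => norm_nonneg _) (fun _ => abs_norm_sub_norm_le _ _) h)
  have h1 : a ≤ ∑ j, ∑ k, ∑ l, S.n2 (S.exp (Y k * R.p j * star (Y l))) ^ 2 :=
    ge_of_tendsto' hlim fun P => haa.le.trans ((hale P).trans (Finset.sum_le_sum fun i _ =>
      pow_le_pow_left₀ (S.n2_nonneg _)
        (S.n2_exp_le_pinch R ((S.posMap_sandwich hY).mem _ (P.mem_A i))) 2))
  refine h1.trans (Finset.sum_le_sum fun j _ => ?_)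
  have hm : ∀ k, Y k * R.p j * star (Y k) ∈ S.M := fun k =>
    mul_mem (mul_mem (hY k) (R.mem_M j)) (star_mem (hY k))
  have hexp : S.exp (sandwich (fun k => star (Y k)) (R.p j)) = ∑ k, S.exp (Y k * R.p j * star (Y k)) := by
    classical
    have : ∀ s : Finset ι, S.exp (∑ k ∈ s, Y k * R.p j * star (Y k)) =
        ∑ k ∈ s, S.exp (Y k * R.p j * star (Y k)) := fun s => by
      induction s using Finset.induction with
      | empty => simp [S.exp_of_mem (zero_mem _)]
      | insert q s hq ih =>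
        rw [Finset.sum_insert hq, Finset.sum_insert hq, S.exp_add (hm q) (sum_mem fun i _ => hm i), ih]
    simpa [sandwich] using this Finset.univ
  have hsa : ∀ k, star (S.exp (Y k * R.p j * star (Y k))) = S.exp (Y k * R.p j * star (Y k)) := fun k => by
    rw [← S.exp_star (hm k)]; simp [mul_assoc, R.star_p]
  rw [hexp, S.n2_sq, star_sum, Finset.sum_mul, S.tau_sum, Complex.re_sum]
  refine Finset.sum_le_sum fun k _ => ?_
  rw [Finset.mul_sum, S.tau_sum, Complex.re_sum]
  refine Finset.sum_le_sum fun l _ => ?_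
  have hm1 : R.p j * star (Y k) ∈ S.M := mul_mem (R.mem_M j) (star_mem (hY k))
  have hm2 : R.p j * star (Y l) ∈ S.M := mul_mem (R.mem_M j) (star_mem (hY l))
  have := S.n2_exp_mul_le hm1 hm2
  simp only [star_mul, star_star, R.star_p] at this
  simp only [mul_assoc, ← mul_assoc (R.p j) (R.p j), R.mul_self] at this
  rw [hsa]
  simpa only [mul_assoc] using this

end Std

end Vale.Agent.P078
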