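import Vale.Agent.P078.Trace.Sym

/-!
# P078: words in the maps `a ↦ E(X* a X)`

A word is approximated, uniformly in fine partitions, by the sum obtained when its expectations are replaced by
pinchings; this gives the convergence and the tracial property of the diagonal sums.
-/

noncomputable section

namespace Vale.Agent.P078

open scoped InnerProductSpace Topology ComplexOrder
open Filter

universe u

variable {H : Type u} [NormedAddCommGroup H] [InnerProductSpace ℂ H] [CompleteSpace H]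

namespace Std

variable (S : Std H)

/-- The vector `aΩ` of `L²(A)`. -/
def av (a : Op H) : S.L2A := S.L2A.orthogonalProjectionOnto (a S.Ω)

lemma coe_av {a : Op H} (ha : a ∈ S.A) : (S.av a : H) = a S.Ω := by
  have h := Submodule.orthogonalProjectionOnto_mem_subspace_eq_self (K := S.L2A) ⟨a S.Ω, S.mem_L2A ha⟩
  exact congrArg Subtype.val h

lemma inner_av {a b : Op H} (ha : a ∈ S.A) (hb : b ∈ S.A) :
    ⟪S.av a, S.av b⟫_ℂ = S.tau (star a * b) := by
  rw [Submodule.coe_inner, S.coe_av ha, S.coe_av hb, S.inner_orbit]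

lemma norm_av {a : Op H} (ha : a ∈ S.A) : ‖S.av a‖ = S.n2 a := by
  rw [Submodule.coe_norm, S.coe_av ha]; rfl

lemma T_av {X Y a : Op H} (hX : X ∈ S.M) (hY : Y ∈ S.M) (ha : a ∈ S.A) :
    S.T X Y (S.av a) = S.av (S.exp (star X * a * Y)) :=
  Subtype.ext (by rw [S.T_apply hX hY ha (S.coe_av ha), S.coe_av (S.exp_mem _)])

lemma mul_av {a b : Op H} (ha : a ∈ S.A) (hb : b ∈ S.A) : S.mul a (S.av b) = S.av (a * b) :=
  Subtype.ext (by rw [S.mul_apply ha, S.coe_av hb, S.coe_av (mul_mem ha hb)]; rfl)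

lemma av_add {a b : Op H} (ha : a ∈ S.A) (hb : b ∈ S.A) : S.av (a + b) = S.av a + S.av b :=
  Subtype.ext (by rw [S.coe_av (add_mem ha hb), Submodule.coe_add, S.coe_av ha, S.coe_av hb]; rfl)

lemma dense_av : Dense {v : S.L2A | ∃ a ∈ S.A, S.av a = v} := by
  intro v
  rw [Metric.mem_closure_iff]
  intro ε hε
  have hv : (v : H) ∈ closure ((Submodule.span ℂ {w : H | ∃ a ∈ S.A, a S.Ω = w} : Submodule ℂ H) : Set H) := by
    rw [← Submodule.topologicalClosure_coe]; exact v.2
  obtain ⟨w, hw, hwd⟩ := Metric.mem_closure_iff.1 hv ε hε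
  obtain ⟨a, ha, rfl⟩ : ∃ a ∈ S.A, a S.Ω = w := by
    refine Submodule.span_induction (fun x hx => hx) ⟨0, zero_mem _, rfl⟩ ?_ ?_ hw
    · rintro x y _ _ ⟨a, ha, rfl⟩ ⟨b, hb, rfl⟩
      exact ⟨a + b, add_mem ha hb, rfl⟩
    · rintro c x _ ⟨a, ha, rfl⟩
      exact ⟨c • a, S.A.smul_mem ha c, rfl⟩
  exact ⟨S.av a, ⟨a, ha, rfl⟩, by rwa [Subtype.dist_eq, S.coe_av ha]⟩

lemma op_ext {F G : S.L2A →L[ℂ] S.L2A} (h : ∀ a ∈ S.A, F (S.av a) = G (S.av a)) : F = G :=
  ContinuousLinearMap.ext_on (S.dense_av.mono Submodule.subset_span) (by rintro _ ⟨a, ha, rfl⟩; exact h a ha)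

/-! ### Words -/

/-- All letters of the word lie in the algebra. -/
def WordMem (w : List (Op H)) : Prop := ∀ X ∈ w, X ∈ S.M

/-- The word of the maps `a ↦ E(X* a X)`. -/
def wordOp : List (Op H) → (S.L2A →L[ℂ] S.L2A)
  | [] => 1
  | X :: w => S.T X X * wordOp w

/-- The word without its last expectation. -/
def pmap : List (Op H) → Op H → Op H
  | [], a => a
  | X :: w, a => star X * S.exp (pmap w a) * X

/-- The word with pinchings in place of the expectations. -/
def qmap (R : S.Parti) : List (Op H) → Op H → Op H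
  | [], a => a
  | X :: w, a => star X * pinch R.p (qmap R w a) * X

/-- The reversed word of adjoints. -/
def dual (w : List (Op H)) : List (Op H) := (w.map star).reverse

lemma posMap_id : S.PosMap fun a => a where
  mem _ ha := S.A_le ha
  zero := rfl
  add _ _ _ _ := rfl
  pos _ _ h := h

lemma posMap_pmap {w : List (Op H)} (hw : S.WordMem w) : S.PosMap (S.pmap w) := by
  induction w with
  | nil => exact S.posMap_id
  | cons X w ih => exact (ih fun Y hY => hw Y (List.mem_cons_of_mem _ hY)).comp_exp.comp_conj (hw X List.mem_cons_self)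

lemma posMap_qmap (R : S.Parti) {w : List (Op H)} (hw : S.WordMem w) : S.PosMap (S.qmap R w) := by
  induction w with
  | nil => exact S.posMap_id
  | cons X w ih => exact ((ih fun Y hY => hw Y (List.mem_cons_of_mem _ hY)).comp_pinch R).comp_conj (hw X List.mem_cons_self)

lemma qmap_mem (R : S.Parti) {w : List (Op H)} (hw : S.WordMem w) {z : Op H} (hz : z ∈ S.M) :
    S.qmap R w z ∈ S.M := by
  induction w with
  | nil => exact hz
  | cons X w ih => exact mul_mem (mul_mem (star_mem (hw X List.mem_cons_self))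
      (S.pinch_mem (ih fun Y hY => hw Y (List.mem_cons_of_mem _ hY)))) (hw X List.mem_cons_self)

lemma wordOp_av {w : List (Op H)} (hw : S.WordMem w) {a : Op H} (ha : a ∈ S.A) :
    S.wordOp w (S.av a) = S.av (S.exp (S.pmap w a)) := by
  induction w with
  | nil => simp [wordOp, pmap, S.exp_of_mem ha]
  | cons X w ih =>
    have hX := hw X List.mem_cons_self
    rw [wordOp, show (S.T X X * S.wordOp w) (S.av a) = S.T X X (S.wordOp w (S.av a)) from rfl, ih fun Y hY => hw Y (List.mem_cons_of_mem _ hY), S.T_av hX hX (S.exp_mem _)]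
    rfl

lemma wordOp_append (u v : List (Op H)) : S.wordOp (u ++ v) = S.wordOp u * S.wordOp v := by
  induction u with
  | nil => simp [wordOp]
  | cons X u ih => simp [wordOp, ih, mul_assoc]

lemma wordMem_append {u v : List (Op H)} (hu : S.WordMem u) (hv : S.WordMem v) : S.WordMem (u ++ v) := by
  intro X hX
  rcases List.mem_append.1 hX with h | h
  exacts [hu X h, hv X h]

lemma wordMem_dual {w : List (Op H)} (hw : S.WordMem w) : S.WordMem (dual w) := by
  intro X hX
  obtain ⟨Y, hY, rfl⟩ : ∃ Y ∈ w, star Y = X := by simpa [dual] using hX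
  exact star_mem (hw Y hY)

lemma dual_dual (w : List (Op H)) : dual (dual w) = w := by
  simp [dual, List.map_reverse, Function.comp_def]

lemma star_wordOp {w : List (Op H)} (hw : S.WordMem w) : star (S.wordOp w) = S.wordOp (dual w) := by
  induction w with
  | nil => exact star_one (S.L2A →L[ℂ] S.L2A)
  | cons X w ih =>
    have hX := hw X List.mem_cons_self
    rw [wordOp, show star (S.T X X * S.wordOp w) = star (S.wordOp w) * star (S.T X X) from star_mul (S.T X X) (S.wordOp w), ih fun Y hY => hw Y (List.mem_cons_of_mem _ hY), S.T_star hX hX,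
      show dual (X :: w) = dual w ++ [star X] by simp [dual], S.wordOp_append]
    simp [wordOp]

lemma qmap_snoc (R : S.Parti) (u : List (Op H)) (Y z : Op H) :
    S.qmap R (u ++ [Y]) z = S.qmap R u (star Y * pinch R.p z * Y) := by
  induction u with
  | nil => rfl
  | cons X u ih => simp [qmap, ih]

lemma tau_qmap_pinch (R : S.Parti) : ∀ {w : List (Op H)}, S.WordMem w → ∀ {z y : Op H}, z ∈ S.M → y ∈ S.M →
    S.tau (pinch R.p z * S.qmap R w y) = S.tau (pinch R.p (S.qmap R (dual w) z) * y)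
  | [], _, z, y, _, _ => rfl
  | X :: w, hw, z, y, hz, hy => by
    have hX := hw X List.mem_cons_self
    have hw' : S.WordMem w := fun Y hY => hw Y (List.mem_cons_of_mem _ hY)
    have hm := S.qmap_mem R hw' hy
    have hz' : X * pinch R.p z * star X ∈ S.M := mul_mem (mul_mem hX (S.pinch_mem hz)) (star_mem hX)
    rw [show dual (X :: w) = dual w ++ [star X] by simp [dual], S.qmap_snoc, star_star,
      ← tau_qmap_pinch R hw' hz' hy, qmap,
      show pinch R.p z * (star X * pinch R.p (S.qmap R w y) * X) =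
        (pinch R.p z * star X * pinch R.p (S.qmap R w y)) * X by simp only [mul_assoc],
      S.tau_comm (mul_mem (mul_mem (S.pinch_mem hz) (star_mem hX)) (S.pinch_mem hm)) hX,
      show X * (pinch R.p z * star X * pinch R.p (S.qmap R w y)) =
        (X * pinch R.p z * star X) * pinch R.p (S.qmap R w y) by simp only [mul_assoc],
      S.tau_mul_pinch_symm R hz' hm]

/-- The pinched word is a finite sum of maps `a ↦ Z* a Z`. -/
lemma exists_sandwich (R : S.Parti) : ∀ {w : List (Op H)}, S.WordMem w →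
    ∃ (ι : Type) (_ : Fintype ι) (Z : ι → Op H), (∀ k, Z k ∈ S.M) ∧ ∀ a, S.qmap R w a = sandwich Z a
  | [], _ => ⟨Unit, inferInstance, fun _ => 1, fun _ => one_mem _, fun a => by simp [qmap, sandwich]⟩
  | X :: w, hw => by
    have hX := hw X List.mem_cons_self
    obtain ⟨ι, _, Z, hZ, hq⟩ := exists_sandwich R fun Y hY => hw Y (List.mem_cons_of_mem _ hY)
    refine ⟨ι × Fin R.n, inferInstance, fun k => Z k.1 * R.p k.2 * X,
      fun k => mul_mem (mul_mem (hZ _) (R.mem_M _)) hX, fun a => ?_⟩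
    simp only [qmap, pinch, hq, sandwich, Finset.mul_sum, Finset.sum_mul, Fintype.sum_prod_type,
      star_mul, R.star_p, mul_assoc]
    exact Finset.sum_comm

lemma n2_conj_le {X z : Op H} (hX : X ∈ S.M) (hz : z ∈ S.M) : S.n2 (star X * z * X) ≤ ‖X‖ ^ 2 * S.n2 z := by
  refine (S.n2_mul_le' (mul_mem (star_mem hX) hz) hX).trans ?_
  refine (mul_le_mul_of_nonneg_right (S.n2_mul_le (star X) z) (norm_nonneg _)).trans (le_of_eq ?_)
  rw [norm_star]; ring

/-- Replacing the expectations of a word by pinchings costs nothing along fine partitions. -/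
theorem tendsto_word_error {w : List (Op H)} (hw : S.WordMem w) :
    Tendsto (fun z : S.Parti × S.Parti => ∑ i, S.n2 (S.pmap w (z.1.p i) - S.qmap z.2 w (z.1.p i)) ^ 2)
      (S.fine ×ˢ S.fine) (𝓝 0) := by
  induction w with
  | nil => simp [pmap, qmap, n2]
  | cons X w ih =>
    have hX := hw X List.mem_cons_self
    have hw' : S.WordMem w := fun Y hY => hw Y (List.mem_cons_of_mem _ hY)
    refine squeeze_zero (fun z => Finset.sum_nonneg fun i _ => sq_nonneg _) (fun z => ?_)
      (by simpa using ((((S.posMap_pmap hw').uniform_pinch).const_mul (2 * (‖X‖ ^ 2) ^ 2)).add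
        ((ih hw').const_mul (2 * (‖X‖ ^ 2) ^ 2))))
    rw [Finset.mul_sum, Finset.mul_sum, ← Finset.sum_add_distrib]
    refine Finset.sum_le_sum fun i _ => ?_
    have hp := (S.posMap_pmap hw').mem _ (z.1.mem_A i)
    have hq := (S.posMap_qmap z.2 hw').mem _ (z.1.mem_A i)
    set p := S.pmap w (z.1.p i)
    set q := S.qmap z.2 w (z.1.p i)
    have h1 : S.n2 (S.pmap (X :: w) (z.1.p i) - S.qmap z.2 (X :: w) (z.1.p i)) ≤
        ‖X‖ ^ 2 * (S.n2 (pinch z.2.p p - S.exp p) + S.n2 (p - q)) := by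
      rw [pmap, qmap, ← sub_mul, ← _root_.mul_sub]
      refine (S.n2_conj_le hX (sub_mem (S.A_le (S.exp_mem _)) (S.pinch_mem hq))).trans ?_
      refine mul_le_mul_of_nonneg_left ?_ (sq_nonneg _)
      have h2 : (S.exp p - pinch z.2.p q) S.Ω =
          -((pinch z.2.p p - S.exp p) S.Ω) + pinch z.2.p (p - q) S.Ω := by
        rw [S.pinch_sub]
        simp only [sub_apply]
        abel
      rw [n2, h2]
      refine (norm_add_le _ _).trans (add_le_add (le_of_eq (norm_neg _)) (S.n2_pinch_le (sub_mem hp hq)))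
    refine (pow_le_pow_left₀ (S.n2_nonneg _) h1 2).trans (le_of_le_of_eq ?_ (by ring :
      (2 * (‖X‖ ^ 2) ^ 2) * S.n2 (pinch z.2.p p - S.exp p) ^ 2 + (2 * (‖X‖ ^ 2) ^ 2) * S.n2 (p - q) ^ 2 =
      (2 * (‖X‖ ^ 2) ^ 2) * S.n2 (pinch z.2.p p - S.exp p) ^ 2 + (2 * (‖X‖ ^ 2) ^ 2) * S.n2 (p - q) ^ 2))
    rw [mul_pow]
    nlinarith [sq_nonneg (S.n2 (pinch z.2.p p - S.exp p) - S.n2 (p - q)), sq_nonneg (‖X‖ ^ 2)]

/-! ### The tracial property on words -/

/-- The square sum of an operator on `L²(A)` over a partition. -/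
def hsSum (F : S.L2A →L[ℂ] S.L2A) (P : S.Parti) : ℝ := ∑ i, ‖F (S.av (P.p i))‖ ^ 2

/-- The diagonal sum of an operator on `L²(A)` over a partition. -/
def kdiag (P : S.Parti) (F : S.L2A →L[ℂ] S.L2A) : ℂ := ∑ i, ⟪S.av (P.p i), F (S.av (P.p i))⟫_ℂ

lemma kdiag_word {w : List (Op H)} (hw : S.WordMem w) (P : S.Parti) :
    S.kdiag P (S.wordOp w) = ((∑ i, (S.tau (P.p i * S.pmap w (P.p i))).re : ℝ) : ℂ) := by
  rw [Complex.ofReal_sum]
  refine Finset.sum_congr rfl fun i _ => ?_
  have hm := (S.posMap_pmap hw).mem _ (P.mem_A i)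
  rw [S.wordOp_av hw (P.mem_A i), S.inner_av (P.mem_A i) (S.exp_mem _), P.star_p,
    S.tau_mul_exp (P.mem_A i) hm]
  exact Complex.ext (by simp) (by
    rw [Complex.ofReal_im]
    exact S.tau_mul_im (P.mem_M i) hm (P.nonneg i) ((S.posMap_pmap hw).pos _ (P.mem_A i) (P.nonneg i)))

lemma kdiag_word_tendsto {w : List (Op H)} (hw : S.WordMem w) :
    ∃ l : ℂ, Tendsto (fun P => S.kdiag P (S.wordOp w)) S.fine (𝓝 l) := by
  obtain ⟨l, hl, -⟩ := S.exists_tendsto_of_antitone (fun P => (S.posMap_pmap hw).pair_nonneg P)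
    fun _ _ h => (S.posMap_pmap hw).sum_pair_le_of_refines h
  refine ⟨(l : ℂ), ?_⟩
  simp only [S.kdiag_word hw]
  exact (Complex.continuous_ofReal.tendsto _).comp hl

lemma n2_sub_exp_le {x y : Op H} (hx : x ∈ S.M) (hy : y ∈ S.M) :
    S.n2 (S.exp x - S.exp y) ≤ S.n2 (x - y) := by
  rw [← S.exp_sub hx hy]
  obtain ⟨P⟩ := S.nonempty_parti'
  exact (S.n2_exp_le_pinch P (sub_mem hx hy)).trans (S.n2_pinch_le (P := P) (sub_mem hx hy))

lemma sandwich_exp_congr {ι : Type*} [Fintype ι] {Z : ι → Op H} (hZ : ∀ k, Z k ∈ S.M) {R : S.Parti}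
    {w : List (Op H)} (hw : S.WordMem w) (hq : ∀ a, S.qmap R w a = sandwich Z a) {a : Op H} (ha : a ∈ S.A) :
    S.exp (sandwich (fun k => star (Z k)) a) S.Ω = S.exp (S.qmap R (dual w) a) S.Ω := by
  have hm := (S.posMap_sandwich fun k => star_mem (hZ k)).mem a ha
  have hm' := S.qmap_mem R (S.wordMem_dual hw) (S.A_le ha)
  set x := sandwich (fun k => star (Z k)) a
  set y := S.qmap R (dual w) a
  have htest : ∀ b ∈ S.A, S.tau (b * x) = S.tau (b * y) := by
    intro b hb
    have h1 : S.tau (b * x) = S.tau (a * S.qmap R w b) := by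
      simp only [x, hq, sandwich, Finset.mul_sum, S.tau_sum, star_star]
      refine Finset.sum_congr rfl fun k _ => ?_
      rw [show b * (Z k * a * star (Z k)) = (b * Z k) * (a * star (Z k)) by simp only [mul_assoc],
        S.tau_comm (mul_mem (S.A_le hb) (hZ k)) (mul_mem (S.A_le ha) (star_mem (hZ k)))]
      simp only [mul_assoc]
    have h2 := S.tau_qmap_pinch R hw (S.A_le ha) (S.A_le hb)
    rw [S.pinch_of_mem R ha] at h2
    rw [h1, h2, ← S.tau_mul_pinch_symm R hm' (S.A_le hb), S.pinch_of_mem R hb, S.tau_comm hm' (S.A_le hb)]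
  have hd : S.exp x - S.exp y ∈ S.A := sub_mem (S.exp_mem _) (S.exp_mem _)
  have h0 : S.tau (star (S.exp x - S.exp y) * (S.exp x - S.exp y)) = 0 := by
    have e := fun {z : Op H} (hz : z ∈ S.M) => S.tau_mul_exp (star_mem hd) hz
    have hsub : ∀ u v : Op H, S.tau (u - v) = S.tau u - S.tau v := fun u v => by
      have := S.tau_add (u - v) v
      rw [sub_add_cancel] at this
      rw [this]; ring
    rw [_root_.mul_sub, hsub, e hm, e hm', htest _ (star_mem hd), sub_self]
  rw [← S.inner_orbit, inner_self_eq_zero] at h0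
  exact sub_eq_zero.1 (by simpa using h0)

/-- The square sums of a pair of words do not change when both are replaced by their adjoints. -/
theorem pair_symm {u v : List (Op H)} (hu : S.WordMem u) (hv : S.WordMem v) {l l' : ℝ}
    (h : Tendsto (S.hsSum (S.wordOp u + S.wordOp v)) S.fine (𝓝 l))
    (h' : Tendsto (S.hsSum (S.wordOp (dual u) + S.wordOp (dual v))) S.fine (𝓝 l')) : l = l' := by
  -- square roots, so that the approximation error is additive
  set err : List (Op H) → S.Parti × S.Parti → ℝ := fun w z =>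
    ∑ i, S.n2 (S.pmap w (z.1.p i) - S.qmap z.2 w (z.1.p i)) ^ 2
  have happrox : ∀ {u v : List (Op H)}, S.WordMem u → S.WordMem v → ∀ {ι : Type} [Fintype ι]
      {Z : ι → Op H} (R : S.Parti), (∀ k, Z k ∈ S.M) →
      (∀ a ∈ S.A, S.exp (sandwich Z a) S.Ω = S.exp (S.qmap R u a + S.qmap R v a) S.Ω) → ∀ P : S.Parti,
      |Real.sqrt (S.hsSum (S.wordOp u + S.wordOp v) P) - Real.sqrt (S.sqSum (sandwich Z) P)| ≤
        Real.sqrt (2 * err u (P, R) + 2 * err v (P, R)) := by
    intro u v hu hv ι _ Z R hZ hq P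
    let F : PiLp 2 (fun _ : Fin P.n => S.L2A) :=
      WithLp.toLp 2 fun i => S.wordOp u (S.av (P.p i)) + S.wordOp v (S.av (P.p i))
    let G : PiLp 2 (fun _ : Fin P.n => S.L2A) := WithLp.toLp 2 fun i => S.av (S.exp (sandwich Z (P.p i)))
    have hF : Real.sqrt (S.hsSum (S.wordOp u + S.wordOp v) P) = ‖F‖ := by
      rw [PiLp.norm_eq_of_L2]; simp [hsSum, F]
    have hG : Real.sqrt (S.sqSum (sandwich Z) P) = ‖G‖ := by
      rw [PiLp.norm_eq_of_L2]; simp [sqSum, G, S.norm_av (S.exp_mem _)]
    rw [hF, hG]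
    refine (abs_norm_sub_norm_le F G).trans ?_
    rw [PiLp.norm_eq_of_L2]
    refine Real.sqrt_le_sqrt ?_
    simp only [err, Finset.mul_sum, ← Finset.sum_add_distrib]
    refine Finset.sum_le_sum fun i _ => ?_
    have hpu := (S.posMap_pmap hu).mem _ (P.mem_A i)
    have hpv := (S.posMap_pmap hv).mem _ (P.mem_A i)
    have hqu := (S.posMap_qmap R hu).mem _ (P.mem_A i)
    have hqv := (S.posMap_qmap R hv).mem _ (P.mem_A i)
    have he : ‖(F - G) i‖ ≤ S.n2 (S.pmap u (P.p i) - S.qmap R u (P.p i)) +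
        S.n2 (S.pmap v (P.p i) - S.qmap R v (P.p i)) := by
      have e1 : ‖(F - G) i‖ = ‖(S.exp (S.pmap u (P.p i)) - S.exp (S.qmap R u (P.p i))) S.Ω +
          (S.exp (S.pmap v (P.p i)) - S.exp (S.qmap R v (P.p i))) S.Ω‖ := by
        rw [show (F - G) i = F i - G i from rfl]
        simp only [F, G]
        rw [Submodule.coe_norm, Submodule.coe_sub, Submodule.coe_add, S.wordOp_av hu (P.mem_A i),
          S.wordOp_av hv (P.mem_A i), S.coe_av (S.exp_mem _), S.coe_av (S.exp_mem _), S.coe_av (S.exp_mem _),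
          hq _ (P.mem_A i), S.exp_add hqu hqv]
        congr 1
        simp only [add_apply, sub_apply]
        abel
      rw [e1]
      exact (norm_add_le _ _).trans (add_le_add (S.n2_sub_exp_le hpu hqu) (S.n2_sub_exp_le hpv hqv))
    refine (pow_le_pow_left₀ (norm_nonneg _) he 2).trans ?_
    nlinarith [sq_nonneg (S.n2 (S.pmap u (P.p i) - S.qmap R u (P.p i)) -
      S.n2 (S.pmap v (P.p i) - S.qmap R v (P.p i)))]
  have hd := S.wordMem_dual hu
  have hd' := S.wordMem_dual hv
  have hE : Tendsto (fun z => Real.sqrt (2 * err u z + 2 * err v z) +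
      Real.sqrt (2 * err (dual u) z + 2 * err (dual v) z)) (S.fine ×ˢ S.fine) (𝓝 0) := by
    have h1 := (((S.tendsto_word_error hu).const_mul 2).add ((S.tendsto_word_error hv).const_mul 2)).sqrt
    have h2 := (((S.tendsto_word_error hd).const_mul 2).add ((S.tendsto_word_error hd').const_mul 2)).sqrt
    simpa [err] using h1.add h2
  have hsq : Real.sqrt l = Real.sqrt l' := by
    refine eq_of_forall_dist_le fun ε hε => ?_
    obtain ⟨pa, hpa, pb, hpb, hab⟩ := Filter.eventually_prod_iff.1 ((Metric.tendsto_nhds.1 hE) ε hε)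
    obtain ⟨R, hR⟩ := hpb.exists
    obtain ⟨ι, hι, Y, hY, hqu⟩ := S.exists_sandwich R hu
    obtain ⟨κ, hκ, Y', hY', hqv⟩ := S.exists_sandwich R hv
    let Z : ι ⊕ κ → Op H := Sum.elim Y Y'
    have hZ : ∀ k, Z k ∈ S.M := fun k => by cases k <;> simp [Z, hY, hY']
    have hsum : ∀ a, sandwich Z a = S.qmap R u a + S.qmap R v a := fun a => by
      simp [sandwich, Z, hqu, hqv, Fintype.sum_sum_type]
    have hsum' : ∀ a ∈ S.A, S.exp (sandwich (fun k => star (Z k)) a) S.Ω =
        S.exp (S.qmap R (dual u) a + S.qmap R (dual v) a) S.Ω := fun a ha => by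
      have hs : sandwich (fun k => star (Z k)) a = sandwich (fun k => star (Y k)) a + sandwich (fun k => star (Y' k)) a := by
        simp [sandwich, Z, Fintype.sum_sum_type]
      rw [hs, S.exp_add ((S.posMap_sandwich fun k => star_mem (hY k)).mem a ha)
          ((S.posMap_sandwich fun k => star_mem (hY' k)).mem a ha),
        S.exp_add (S.qmap_mem R hd (S.A_le ha)) (S.qmap_mem R hd' (S.A_le ha)), add_apply,
        add_apply, S.sandwich_exp_congr hY hu hqu ha, S.sandwich_exp_congr hY' hv hqv ha]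
    obtain ⟨m, hm, -⟩ := (S.posMap_sandwich hZ).exists_sqSum_tendsto
    obtain ⟨m', hm', -⟩ := (S.posMap_sandwich fun k => star_mem (hZ k)).exists_sqSum_tendsto
    have hmm : m = m' := S.sandwich_symm hZ hm hm'
    have hb : ∀ᶠ P in S.fine, Real.sqrt (2 * err u (P, R) + 2 * err v (P, R)) +
        Real.sqrt (2 * err (dual u) (P, R) + 2 * err (dual v) (P, R)) ≤ ε := by
      filter_upwards [hpa] with P hP
      have := hab hP hR
      rw [Real.dist_eq, sub_zero] at this
      exact (le_abs_self _).trans this.le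
    have hl : Tendsto (fun P => |Real.sqrt (S.hsSum (S.wordOp u + S.wordOp v) P) - Real.sqrt (S.sqSum (sandwich Z) P)| +
        |Real.sqrt (S.hsSum (S.wordOp (dual u) + S.wordOp (dual v)) P) -
          Real.sqrt (S.sqSum (sandwich fun k => star (Z k)) P)|) S.fine
        (𝓝 (|Real.sqrt l - Real.sqrt m| + |Real.sqrt l' - Real.sqrt m'|)) :=
      ((h.sqrt.sub hm.sqrt).abs).add ((h'.sqrt.sub hm'.sqrt).abs)
    have hle := le_of_tendsto hl (hb.mono fun P hP => (add_le_add
      (happrox hu hv R hZ (fun a _ => by rw [hsum]) P)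
      (happrox hd hd' R (fun k => star_mem (hZ k)) hsum' P)).trans hP)
    rw [Real.dist_eq]
    calc |Real.sqrt l - Real.sqrt l'| = |(Real.sqrt l - Real.sqrt m) - (Real.sqrt l' - Real.sqrt m')| := by
          rw [hmm]; ring_nf
      _ ≤ ε := (abs_sub _ _).trans hle
  have hl0 : 0 ≤ l := ge_of_tendsto' h fun P => Finset.sum_nonneg fun i _ => sq_nonneg _
  have hl0' : 0 ≤ l' := ge_of_tendsto' h' fun P => Finset.sum_nonneg fun i _ => sq_nonneg _
  rw [← Real.mul_self_sqrt hl0, ← Real.mul_self_sqrt hl0', hsq]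

lemma hsSum_add (F G : S.L2A →L[ℂ] S.L2A) (P : S.Parti) :
    S.hsSum (F + G) P = (S.kdiag P (star F * F)).re + 2 * (S.kdiag P (star F * G)).re +
      (S.kdiag P (star G * G)).re := by
  simp only [hsSum, kdiag, Complex.re_sum, Finset.mul_sum, ← Finset.sum_add_distrib, add_apply,
    ContinuousLinearMap.star_eq_adjoint]
  refine Finset.sum_congr rfl fun i _ => ?_
  set v := S.av (P.p i)
  have e : ∀ A B : S.L2A →L[ℂ] S.L2A, ⟪v, (ContinuousLinearMap.adjoint A * B) v⟫_ℂ = ⟪A v, B v⟫_ℂ :=
    fun A B => ContinuousLinearMap.adjoint_inner_right A v (B v)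
  rw [e, e, e, norm_add_sq (𝕜 := ℂ), ← inner_self_eq_norm_sq (𝕜 := ℂ) (F v), ← inner_self_eq_norm_sq (𝕜 := ℂ) (G v)]
  rfl

/-- The diagonal sums of two words have the same limit in either order. -/
theorem word_tracial {u v : List (Op H)} (hu : S.WordMem u) (hv : S.WordMem v) {l l' : ℂ}
    (h : Tendsto (fun P => S.kdiag P (S.wordOp u * S.wordOp v)) S.fine (𝓝 l))
    (h' : Tendsto (fun P => S.kdiag P (S.wordOp v * S.wordOp u)) S.fine (𝓝 l')) : l = l' := by
  have hre : ∀ {w : List (Op H)}, S.WordMem w → ∀ {c : ℂ},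
      Tendsto (fun P => S.kdiag P (S.wordOp w)) S.fine (𝓝 c) → c.im = 0 := fun {w} hw {c} hc =>
    tendsto_nhds_unique ((Complex.continuous_im.tendsto _).comp hc)
      (by simp only [Function.comp_def, S.kdiag_word hw, Complex.ofReal_im]; exact tendsto_const_nhds)
  have hlim : ∀ {F G : List (Op H)}, S.WordMem F → S.WordMem G →
      ∃ c : ℂ, Tendsto (fun P => S.kdiag P (star (S.wordOp F) * S.wordOp G)) S.fine (𝓝 c) := fun {F G} hF hG => by
    obtain ⟨c, hc⟩ := S.kdiag_word_tendsto (S.wordMem_append (S.wordMem_dual hF) hG)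
    exact ⟨c, by simpa only [S.star_wordOp hF, ← S.wordOp_append] using hc⟩
  -- the square sums of one word
  have hone : ∀ {F : List (Op H)}, S.WordMem F → ∀ {c c' : ℂ},
      Tendsto (fun P => S.kdiag P (star (S.wordOp F) * S.wordOp F)) S.fine (𝓝 c) →
      Tendsto (fun P => S.kdiag P (star (S.wordOp (dual F)) * S.wordOp (dual F))) S.fine (𝓝 c') → c.re = c'.re := by
    intro F hF c c' hc hc'
    have e : ∀ (G : S.L2A →L[ℂ] S.L2A) P, S.hsSum (G + G) P = 4 * (S.kdiag P (star G * G)).re := fun G P => by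
      rw [S.hsSum_add]; ring
    have h1 := ((Complex.continuous_re.tendsto _).comp hc).const_mul 4
    have h2 := ((Complex.continuous_re.tendsto _).comp hc').const_mul 4
    have := S.pair_symm hF hF (l := 4 * c.re) (l' := 4 * c'.re) (by simpa only [funext (e _), Function.comp_def] using h1)
      (by simpa only [funext (e _), Function.comp_def] using h2)
    linarith
  have hd := S.wordMem_dual hu
  obtain ⟨a, ha⟩ := hlim hd hd
  obtain ⟨a', ha'⟩ := hlim hu hu
  obtain ⟨b, hb⟩ := hlim hv hv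
  obtain ⟨b', hb'⟩ := hlim (S.wordMem_dual hv) (S.wordMem_dual hv)
  have hab : a.re = a'.re := hone hd ha (by simpa only [dual_dual] using ha')
  have hbb : b.re = b'.re := hone hv hb hb'
  have h1 : Tendsto (fun P => S.kdiag P (star (S.wordOp (dual u)) * S.wordOp v)) S.fine (𝓝 l) := by
    simpa only [S.star_wordOp hd, dual_dual] using h
  have h1' : Tendsto (fun P => S.kdiag P (star (S.wordOp (dual v)) * S.wordOp u)) S.fine (𝓝 l') := by
    simpa only [S.star_wordOp (S.wordMem_dual hv), dual_dual] using h'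
  have t : ∀ {F G : List (Op H)} {x y z : ℂ},
      Tendsto (fun P => S.kdiag P (star (S.wordOp F) * S.wordOp F)) S.fine (𝓝 x) →
      Tendsto (fun P => S.kdiag P (star (S.wordOp F) * S.wordOp G)) S.fine (𝓝 y) →
      Tendsto (fun P => S.kdiag P (star (S.wordOp G) * S.wordOp G)) S.fine (𝓝 z) →
      Tendsto (S.hsSum (S.wordOp F + S.wordOp G)) S.fine (𝓝 (x.re + 2 * y.re + z.re)) := by
    intro F G x y z hx hy hz
    rw [show S.hsSum (S.wordOp F + S.wordOp G) = _ from funext (S.hsSum_add _ _)]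
    exact (((Complex.continuous_re.tendsto _).comp hx).add
      (((Complex.continuous_re.tendsto _).comp hy).const_mul 2)).add ((Complex.continuous_re.tendsto _).comp hz)
  have hsym := S.pair_symm hd hv (t ha h1 hb) (by
    rw [dual_dual, add_comm (S.wordOp u)]
    exact t hb' h1' ha')
  have hli := hre (S.wordMem_append hu hv) (by simpa only [S.wordOp_append] using h)
  have hli' := hre (S.wordMem_append hv hu) (by simpa only [S.wordOp_append] using h')
  exact Complex.ext (by linarith) (hli.trans hli'.symm)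

end Std

end Vale.Agent.P078
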